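import Mathlib
import Vale.Agent.Lib.Helper4.Jacobsthal

/-!
# P013: a linear bound for Jacobsthal's function when the reciprocal prime sum is below one

If `s = ∑_{p ∣ n} 1/p < 1` then `j(n) ≤ ω(n) / (1 - s) + 1`.
-/

namespace Vale.Agent.Results.P013.ReciprocalSumBound

open Finset Vale.Agent.Lib.Helper4

theorem result (n : ℕ) (hn : 1 < n)
    (hs : ∑ p ∈ n.primeFactors, (1 / (p : ℝ)) < 1) :
    (jacobsthal n : ℝ) ≤
      (n.primeFactors.card : ℝ) / (1 - ∑ p ∈ n.primeFactors, (1 / (p : ℝ))) + 1 := by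
  set k : ℕ := n.primeFactors.card with hk
  set s : ℝ := ∑ p ∈ n.primeFactors, (1 / (p : ℝ)) with hsdef
  have hn0 : n ≠ 0 := by omega
  have h1s : 0 < 1 - s := by linarith
  have hx0 : 0 ≤ (k : ℝ) / (1 - s) := div_nonneg (Nat.cast_nonneg k) h1s.le
  set m : ℕ := ⌊(k : ℝ) / (1 - s)⌋₊ + 1 with hm
  have hmlt : (k : ℝ) / (1 - s) < (m : ℝ) := by
    have := Nat.lt_floor_add_one ((k : ℝ) / (1 - s))
    simpa [hm] using this
  have hkm : (k : ℝ) < (m : ℝ) * (1 - s) := (div_lt_iff₀ h1s).mp hmlt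
  have hmem : m ∈ {m : ℕ | 0 < m ∧ ∀ a : ℤ, ∃ i : ℕ, i < m ∧ IsCoprime (a + (i : ℤ)) (n : ℤ)} := by
    refine ⟨Nat.succ_pos _, ?_⟩
    intro a
    by_contra hcon
    push Not at hcon
    have hle := window_le_sum_of_forall_not_coprime n hn0 a m hcon
    have hle' : (m : ℝ) ≤ ∑ p ∈ n.primeFactors, ((m : ℝ) / (p : ℝ) + 1) := by
      calc (m : ℝ) ≤ ((∑ p ∈ n.primeFactors, (m / p + 1) : ℕ) : ℝ) := by exact_mod_cast hle
        _ = ∑ p ∈ n.primeFactors, (((m / p : ℕ) : ℝ) + 1) := by push_cast; rfl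
        _ ≤ ∑ p ∈ n.primeFactors, ((m : ℝ) / (p : ℝ) + 1) := by
            apply sum_le_sum
            intro p _
            have h := Nat.cast_div_le (α := ℝ) (m := m) (n := p)
            linarith
    have hsum : ∑ p ∈ n.primeFactors, ((m : ℝ) / (p : ℝ) + 1) = (m : ℝ) * s + (k : ℝ) := by
      rw [sum_add_distrib, hsdef, mul_sum]
      simp only [sum_const, nsmul_eq_mul, mul_one, hk]
      congr 1
      apply sum_congr rfl
      intro p _
      ring
    rw [hsum] at hle'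
    nlinarith
  have hj : jacobsthal n ≤ m := Nat.sInf_le hmem
  have hm_le : (m : ℝ) ≤ (k : ℝ) / (1 - s) + 1 := by
    have := Nat.floor_le hx0
    simp only [hm, Nat.cast_add, Nat.cast_one]
    linarith
  calc (jacobsthal n : ℝ) ≤ (m : ℝ) := by exact_mod_cast hj
    _ ≤ (k : ℝ) / (1 - s) + 1 := hm_le

end Vale.Agent.Results.P013.ReciprocalSumBound
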